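import Vale.Agent.P307.R2.H882.Lc2
import Vale.Agent.P307.R2.H301.Din.Defs

/-!
Local character of independence along arbitrary chains, and the chain conditions.
-/

set_option linter.unusedSectionVars false

universe u v w

open FirstOrder Cardinal Set Function

namespace Vale.Agent.P307.R2.H882

open Vale.Agent.P307 Vale.Agent.P307.H304 Vale.Agent.P307.R2.H287 Vale.Agent.P307.R2.H1
  Vale.Agent.P307.R2.H971 Vale.Agent.P307.R2.H804 Vale.Agent.P307.R2.H806
  Vale.Agent.P307.R2.H541 Language.Structure Language.Substructure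

variable {L : Language.{u, u}} {K : AEC L} {ℓ θ : Cardinal.{u}}
  {κf α : Cardinal.{u} → Cardinal.{u}} {C : Type u} [L.Structure C]

theorem ind_self_right {M : PG C} {P x : Set C} : M.Ind P x P :=
  fun _ _ _ _ hF _ => ⟨1, M.G.one_mem, fun _ _ => rfl, fun _ hb => hF hb⟩

theorem ind_trans_right {M : PG C} {P Q U x : Set C} (hPQ : P ⊆ Q) (h : M.Ind P x Q)
    (h' : M.Ind Q x U) : M.Ind P x U := by
  intro A hA hAc F hF hFc
  obtain ⟨g, hg, h1, h2⟩ := h' A (hA.trans (union_subset_union_left x hPQ)) hAc F hF hFc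
  obtain ⟨k, hk, h3, h4⟩ := h A hA hAc (g '' F) (by
    rintro _ ⟨b, hb, rfl⟩
    exact h2 b hb) (mk_image_le.trans_lt hFc)
  refine ⟨k * g, M.G.mul_mem hk hg, fun a ha => ?_, fun b hb => ?_⟩
  · rw [Equiv.Perm.mul_apply, h1 a ha, h3 a ha]
  · rw [Equiv.Perm.mul_apply]
    exact h4 _ ⟨b, hb, rfl⟩

section

variable (h₀ : BasePt K ℓ κf α θ) (hK : K.IsLS ℓ)
  (hunb : ∀ ν, ν < κf ν ∧ K.CategoricalIn (κf ν)) (hst : Stab K ℓ α (H287.thr κf))
  (hCm : K.mem C) (hs : Sat K θ C) (hCc : #C = Order.succ θ)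

include h₀ hK hunb hst hCm hs hCc

/-- Local character along the chains of small length. -/
theorem loc_small (hrk : ∀ ρ < θ, ∃ σ, ρ < σ ∧ σ < θ ∧ BasePt K ℓ κf α σ) (κ : Cardinal.{u}) :
    κ < θ → ∀ (ι : Type u) [LinearOrder ι] [Nonempty ι], #ι = κ → ∀ N : ι → Set C,
      Monotone N → (∀ i, N i ∈ (pg h₀ hK hunb hst hCm hs hCc).S) →
      #(⋃ i, N i : Set C) ≤ θ → ∀ x : Set C, x.Finite →
      ∃ i, (pg h₀ hK hunb hst hCm hs hCc).Ind (N i) x (⋃ i, N i) := by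
  induction κ using WellFoundedLT.induction with
  | ind κ ih =>
  intro hκ ι _ _ hι N hN hNS hc x hx
  by_cases hfin : Finite ι
  · obtain ⟨i, hi⟩ := (Set.finite_univ (α := ι)).bddAbove
    refine ⟨i, ?_⟩
    have h1 : (⋃ i, N i) = N i :=
      Subset.antisymm (iUnion_subset fun k => hN (hi (mem_univ k))) (subset_iUnion N i)
    rw [h1]
    exact ind_self_right
  have hκ0 : ℵ₀ ≤ κ := by
    rw [← hι]
    exact aleph0_le_mk_iff.2 (not_finite_iff_infinite.1 hfin)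
  let W : Type u := κ.ord.ToType
  have hW : #W = κ := mk_ord_toType _
  obtain ⟨e⟩ := Cardinal.eq.1 (hW.trans hι.symm)
  have hWne : Nonempty W := ⟨e.symm (Classical.arbitrary ι)⟩
  have hIic : ∀ w : W, #(Iic w) < κ := by
    intro w
    have h1 : #(Iio w) < κ := by
      have h2 := Cardinal.mk_Iio_lt w (by rw [hW, Ordinal.type_toType])
      rwa [hW] at h2
    rw [← Iio_insert]
    refine (mk_insert_le).trans_lt (add_lt_of_lt hκ0 h1 (one_lt_aleph0.trans_le hκ0))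
  let J : W → Set ι := fun w => e '' Iic w
  have hJc : ∀ w, #(J w) < κ := fun w => mk_image_le.trans_lt (hIic w)
  have hJne : ∀ w, Nonempty (J w) := fun w => ⟨⟨e w, w, mem_Iic.2 le_rfl, rfl⟩⟩
  let N' : W → Set C := fun w => ⋃ j : J w, N j
  have hN'sub : ∀ w, N' w ⊆ ⋃ i, N i := fun w => iUnion_subset fun j => subset_iUnion N j
  have hN'c : ∀ w, #(N' w) ≤ θ := fun w => (mk_le_mk_of_subset (hN'sub w)).trans hc
  have hJm : ∀ w, Monotone fun j : J w => N j := fun w j k hjk => hN hjk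
  have hN'S : ∀ w, N' w ∈ (pg h₀ hK hunb hst hCm hs hCc).S := by
    intro w
    have := hJne w
    exact H913.pg_iUnion h₀ hK hunb hst hCm hs hCc (fun j : J w => N j) (hJm w)
      (fun j => hNS j) (hN'c w)
  have hN'm : Monotone N' := by
    intro w w' hw
    refine iUnion_subset ?_
    rintro ⟨_, v, hv, rfl⟩
    exact subset_iUnion (fun j : J w' => N j) ⟨e v, v, le_trans hv hw, rfl⟩
  have hN'U : (⋃ w, N' w) = ⋃ i, N i := by
    apply Subset.antisymm (iUnion_subset hN'sub)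
    refine iUnion_subset fun i => ?_
    refine Subset.trans ?_ (subset_iUnion N' (e.symm i))
    exact subset_iUnion (fun j : J (e.symm i) => N j) ⟨i, e.symm i, mem_Iic.2 le_rfl,
      e.apply_symm_apply i⟩
  have hUS : (⋃ i, N i) ∈ (pg h₀ hK hunb hst hCm hs hCc).S :=
    H913.pg_iUnion h₀ hK hunb hst hCm hs hCc N hN hNS hc
  obtain ⟨w, hw⟩ := loc_wf h₀ hK hunb hst hCm hs hCc hrk (W := W) (by rwa [hW]) N' hN'm hN'S
    (by rwa [hN'U]) x hx
  rw [hN'U] at hw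
  have := hJne w
  obtain ⟨j, hj⟩ := ih _ (hJc w) ((hJc w).trans hκ) (J w) rfl (fun j : J w => N j) (hJm w)
    (fun j => hNS j) (hN'c w) x hx
  exact ⟨j, ind_trans_right (subset_iUnion (fun j : J w => N j) j) hj hw⟩

/-- **Local character along arbitrary chains.** -/
theorem loc (hrk : ∀ ρ < θ, ∃ σ, ρ < σ ∧ σ < θ ∧ BasePt K ℓ κf α σ) (ι : Type u)
    [LinearOrder ι] [Nonempty ι] (N : ι → Set C) (hN : Monotone N)
    (hNS : ∀ i, N i ∈ (pg h₀ hK hunb hst hCm hs hCc).S) (hc : #(⋃ i, N i : Set C) ≤ θ)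
    (x : Set C) (hx : x.Finite) :
    ∃ i, (pg h₀ hK hunb hst hCm hs hCc).Ind (N i) x (⋃ i, N i) := by
  have hθ := aleph0_le_pt h₀ hK
  have hθ' : ℵ₀ < θ := hK.1.trans_lt h₀.pt.lt
  obtain ⟨Y, hY, hYc, hYU⟩ := (pg h₀ hK hunb hst hCm hs hCc).cof (⋃ i, N i) hc
  -- a small set of indices is enough
  have key : ∀ I : Set ι, #I < θ → (⋃ i, N i) ⊆ ⋃ i : I, N i →
      ∃ i, (pg h₀ hK hunb hst hCm hs hCc).Ind (N i) x (⋃ i, N i) := by
    intro I hI hIU
    have h1 : (⋃ i, N i) = ⋃ i : I, N i :=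
      Subset.antisymm hIU (iUnion_subset fun i => subset_iUnion N i)
    have hne : Nonempty I := by
      by_contra hemp
      rw [not_nonempty_iff] at hemp
      have h2 : N (Classical.arbitrary ι) ⊆ ∅ := by
        refine (subset_iUnion N _).trans (hIU.trans ?_)
        rw [iUnion_of_empty]
      have h3 := (pg h₀ hK hunb hst hCm hs hCc).S_card (hNS (Classical.arbitrary ι))
      rw [subset_empty_iff.1 h2, mk_eq_zero] at h3
      exact (aleph0_pos.trans_le hθ).ne h3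
    rw [h1] at hc ⊢
    obtain ⟨i, hi⟩ := loc_small h₀ hK hunb hst hCm hs hCc hrk #I hI I rfl (fun i : I => N i)
      (fun i j hij => hN hij) (fun i => hNS i) hc x hx
    exact ⟨i, hi⟩
  have hidx : ∀ u : (⋃ i, N i : Set C), ∃ i, (u : C) ∈ N i := fun u => mem_iUnion.1 u.2
  choose f hf using hidx
  let I : ℕ → Set ι := fun n => {i | ∃ u : (⋃ i, N i : Set C), (u : C) ∈ Y n ∧ f u = i}
  have hIc : ∀ n, #(I n) < θ := by
    intro n
    have h1 : I n ⊆ f '' {u | (u : C) ∈ Y n} := by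
      rintro i ⟨u, hu, rfl⟩
      exact ⟨u, hu, rfl⟩
    refine ((mk_le_mk_of_subset h1).trans mk_image_le).trans_lt ?_
    refine lt_of_le_of_lt ?_ (hYc n)
    refine mk_le_of_injective (f := fun u : {u : (⋃ i, N i : Set C) | (u : C) ∈ Y n} =>
      (⟨((u : (⋃ i, N i : Set C)) : C), u.2⟩ : Y n)) ?_
    intro u v huv
    have h2 : ((u : (⋃ i, N i : Set C)) : C) = ((v : (⋃ i, N i : Set C)) : C) :=
      congrArg (fun z : Y n => (z : C)) huv
    exact Subtype.ext (Subtype.ext h2)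
  by_cases hcase : ∃ n, (⋃ i, N i) ⊆ ⋃ i : I n, N i
  · obtain ⟨n, hn⟩ := hcase
    exact key (I n) (hIc n) hn
  push Not at hcase
  have h1 : ∀ n, ∃ k : ι, ∀ i ∈ I n, N i ⊆ N k := by
    intro n
    obtain ⟨u, hu, hu'⟩ := not_subset.1 (hcase n)
    obtain ⟨k, hk⟩ := mem_iUnion.1 hu
    refine ⟨k, fun i hi => ?_⟩
    rcases le_total i k with h | h
    · exact hN h
    · exact absurd (mem_iUnion.2 ⟨⟨i, hi⟩, hN h hk⟩) hu'
  choose k hk using h1
  refine key (range k) ?_ ?_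
  · refine lt_of_le_of_lt ?_ hθ'
    have h2 := mk_range_le_lift (f := k)
    simpa using h2
  · intro u hu
    have h2 : u ∈ ⋃ n, Y n := by
      rw [hYU]
      exact hu
    obtain ⟨n, hn⟩ := mem_iUnion.1 h2
    refine mem_iUnion.2 ⟨⟨k n, n, rfl⟩, ?_⟩
    exact hk n (f ⟨u, hu⟩) ⟨⟨u, hu⟩, hn, rfl⟩ (hf ⟨u, hu⟩)

/-- **The chain conditions.** -/
theorem pg_chn (hrk : ∀ ρ < θ, ∃ σ, ρ < σ ∧ σ < θ ∧ BasePt K ℓ κf α σ) :
    H650.Chn (pg h₀ hK hunb hst hCm hs hCc) :=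
  H913.pg_chn h₀ hK hunb hst hCm hs hCc fun ι _ _ N hN hNS hc x hx =>
    loc h₀ hK hunb hst hCm hs hCc hrk ι N hN hNS hc x hx

end

/-- The chain conditions hold at the base points which are limits of base points. -/
theorem chnU_of_rk (hθ : H718.Rk K ℓ κf α 1 θ) : H301.ChnU (K := K) (ℓ := ℓ) (κf := κf)
    (α := α) θ := by
  intro h₀ hK hunb hst C _ hCm hs hCc
  exact pg_chn h₀ hK hunb hst hCm hs hCc fun ρ hρ => by
    obtain ⟨σ, h1, h2, h3⟩ := hθ.exists_btw hρ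
    exact ⟨σ, h1, h2, h3.base⟩

theorem ev_chnU : H301.Ev K ℓ κf α (H301.ChnU (K := K) (ℓ := ℓ) (κf := κf) (α := α)) :=
  ⟨1, fun _ hθ => chnU_of_rk hθ⟩

end Vale.Agent.P307.R2.H882
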