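import Vale.Agent.P307.R2.H578.FCont
import Vale.Agent.P307.R2.H427.Low
import Vale.Agent.P307.R2.H480.Up

/-!
Standard submodels inside a given strong submodel, and finite bases over them.
-/

set_option linter.unusedSectionVars false

universe u v w

open FirstOrder Cardinal Set

namespace Vale.Agent.P307.R2.H882

open Vale.Agent.P307 Vale.Agent.P307.H304 Vale.Agent.P307.R2.H287 Vale.Agent.P307.R2.H1
  Vale.Agent.P307.R2.H971 Vale.Agent.P307.R2.H804 Vale.Agent.P307.R2.H806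
  Vale.Agent.P307.R2.H541 Language.Structure Language.Substructure

variable {L : Language.{u, u}} {K : AEC L} {ℓ θ σ τ ν' : Cardinal.{u}}
  {κf α : Cardinal.{u} → Cardinal.{u}} {C : Type u} [L.Structure C]

/-- Moving the right side of a position. -/
theorem exists_pos_move {D : Type u} [L.Structure D] (x : Pos K σ D C) (g : C ≃[L] C)
    (hC : K.mem C) :
    ∃ y : Pos K σ D C, y.S = x.S ∧ (∀ p ∈ x.R, (p.1, g p.2) ∈ y.R) ∧
      (∀ c ∈ y.S', ∃ d ∈ x.S', g d = c) := by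
  obtain ⟨e, he⟩ := x.exists_equiv
  have hSm : K.mem x.S := (K.mem_of_le _ x.le).1
  obtain ⟨y, hy⟩ := exists_pos_of_emb x.S.subtype
    (g.toEmbedding.comp (x.S'.subtype.comp e.toEmbedding)) (AEC.emb_subtype.2 x.le)
    (AEC.Emb.comp (AEC.Emb.of_equiv g hC) (AEC.Emb.comp (AEC.emb_subtype.2 x.le')
      (AEC.Emb.of_equiv e hSm))) x.card
  have h1 : ∀ p ∈ x.R, (p.1, g p.2) ∈ y.R := by
    intro p hp
    have h3 : p.1 ∈ x.S := by
      rw [← SetLike.mem_coe, x.fst]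
      exact ⟨p, hp, rfl⟩
    have h5 : (e ⟨p.1, h3⟩ : C) = p.2 := (x.pi.eq_iff _ (he ⟨p.1, h3⟩) _ hp).1 rfl
    rw [hy]
    refine ⟨⟨p.1, h3⟩, Prod.ext rfl ?_⟩
    change g (e ⟨p.1, h3⟩ : C) = g p.2
    rw [h5]
  refine ⟨y, ?_, h1, ?_⟩
  · apply SetLike.coe_injective
    rw [y.fst, hy]
    ext z
    constructor
    · rintro ⟨_, ⟨a, rfl⟩, rfl⟩
      exact a.2
    · intro hz
      exact ⟨_, ⟨⟨z, hz⟩, rfl⟩, rfl⟩
  · intro c hc
    rw [← SetLike.mem_coe, y.snd, hy] at hc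
    obtain ⟨_, ⟨a, rfl⟩, rfl⟩ := hc
    exact ⟨(e a : C), (e a).2, rfl⟩

/-- **Finite bases.** Finite sets have finite bases over standard submodels, in an arbitrary
large member. -/
theorem exists_base_fin' (hK : K.IsLS ℓ) (hunb : ∀ ν, ν < κf ν ∧ K.CategoricalIn (κf ν))
    (hℓ : ℓ ≤ τ) (hτν : τ ≤ ν') (hτσ : Order.succ τ ≤ σ) (hthr : thr κf ν' ≤ σ)
    {t : Tpl K ℓ} {E : EM t (SuccTy σ ⊕ₗ TailTy τ)} (hsE : Sat K σ E.N) (hC : K.mem C)
    (hCc : σ ≤ #C) (hs : Sat K σ C) {x : Pos K σ E.N C} {a : SuccTy σ} (hx : IsStd x a)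
    (R : Set C) (hR : R.Finite) :
    ∃ V : Set (SuccTy σ), V ⊆ Iio a ∧ V.Finite ∧ ∀ V' : Set (SuccTy σ), V ⊆ V' → V' ⊆ Iio a →
      CoH L τ ν' R x.S' (chA x V') := by
  classical
  have hτ : ℵ₀ ≤ τ := hK.1.trans hℓ
  have hν' : ℵ₀ ≤ ν' := hτ.trans hτν
  have hℓσ : ℓ ≤ σ := (hℓ.trans (Order.le_succ τ)).trans hτσ
  have hσ : ℵ₀ ≤ σ := hK.1.trans hℓσ
  have hEc := card_em hσ hℓσ hτ hτσ E
  have hF : #(TailTy τ) ≤ σ := (mk_tailTy hτ).trans_le hτσ
  obtain ⟨y, b, hy, hxy, -, hRy, -⟩ := exists_std_ext hK hℓσ hℓσ hF hC hCc hsE hs x ∅ R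
    (by simp) ((lt_aleph0_iff_set_finite.2 hR).le.trans hσ) a
  obtain ⟨e, he⟩ := y.exists_equiv
  choose supp sm hsm using fun x : E.N => exists_finset_term E.top x
  -- the inverse of the chart
  have hinv : ∀ c ∈ y.S', ∃ z : y.S, (e z : C) = c := fun c hc =>
    ⟨e.symm ⟨c, hc⟩, by rw [e.apply_symm_apply]⟩
  let W : Set (SuccTy σ ⊕ₗ TailTy τ) := ⋃ k ∈ {z : y.S | (e z : C) ∈ R}, (supp (k : E.N) : Set _)
  have hRfin : {z : y.S | (e z : C) ∈ R}.Finite := by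
    refine hR.preimage (f := fun z : y.S => (e z : C)) ?_
    intro z _ z' _ h
    exact e.injective (Subtype.ext h)
  have hW : W.Finite := hRfin.biUnion fun k _ => (supp _).finite_toSet
  have hinl : Function.Injective
      (fun a : SuccTy σ => (toLex (Sum.inl a) : SuccTy σ ⊕ₗ TailTy τ)) :=
    fun a b hab => Sum.inl_injective (toLex.injective hab)
  refine ⟨((fun a : SuccTy σ => (toLex (Sum.inl a) : SuccTy σ ⊕ₗ TailTy τ)) ⁻¹' W) ∩ Iio a,
    inter_subset_right, (hW.preimage hinl.injOn).subset inter_subset_left, ?_⟩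
  intro V' hV' hV'a
  have h1 := coH_em hK hunb hℓ hτν E ((hthr.trans (Order.le_succ σ)).trans hEc.ge) (s := Iio a)
    (s' := V') (fun c hc d hd => lt_of_lt_of_le hc (not_lt.1 hd)) (W := W)
    fun c hc hcW => hV' ⟨hcW, hc⟩
  -- elements of `x.S'`
  have hxS : ∀ c ∈ x.S', ∃ z : y.S, (e z : C) = c ∧ (z : E.N) ∈ hullL E (low (TailTy τ) (Iio a)) := by
    intro c hc
    rw [← SetLike.mem_coe, x.snd] at hc
    obtain ⟨p, hp, rfl⟩ := hc
    have h3 : p.1 ∈ x.S := by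
      rw [← SetLike.mem_coe, x.fst]
      exact ⟨p, hp, rfl⟩
    have h4 : p.1 ∈ y.S := Pos.S_mono hxy h3
    refine ⟨⟨p.1, h4⟩, (y.pi.eq_iff _ (he ⟨p.1, h4⟩) _ (hxy hp)).1 rfl, ?_⟩
    rw [← hx]
    exact h3
  intro ι ζ hι hζ r m hr hm
  choose r₁ hr₁ using fun i => hinv (r i) (hRy (hr i))
  choose m₁ hm₁ hm₂ using fun z => hxS (m z) (hm z)
  obtain ⟨r', h2, h3⟩ := h1 ι ζ hι hζ (fun i => (r₁ i : E.N)) (fun z => (m₁ z : E.N)) (by
    intro i
    have h5 : (r₁ i) ∈ {z : y.S | (e z : C) ∈ R} := by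
      change (e (r₁ i) : C) ∈ R
      rw [hr₁]
      exact hr i
    have h4 : ((r₁ i : y.S) : E.N) ∈ closure (exLang L t.Λ) (E.c '' W) := by
      rw [← hsm ((r₁ i : y.S) : E.N)]
      exact Vale.Agent.P307.R2.H773.realize_mem_cl (sm ((r₁ i : y.S) : E.N))
        (fun d : supp ((r₁ i : y.S) : E.N) => d.1) fun d => mem_biUnion h5 d.2
    exact h4) hm₂
  -- back into `C`
  have hr'S : ∀ i, r' i ∈ x.S := by
    intro i
    rw [hx]
    exact hullL_mono E (low_mono hV'a) (h2 i)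
  have hr'y : ∀ i, r' i ∈ y.S := fun i => Pos.S_mono hxy (hr'S i)
  let r₂ : ι → y.S := fun i => ⟨r' i, hr'y i⟩
  refine ⟨fun i => (e (r₂ i) : C), fun i => ⟨r' i, h2 i, ?_⟩, ?_⟩
  · have h4 := hr'S i
    rw [← SetLike.mem_coe, x.fst] at h4
    obtain ⟨p, hp, hp'⟩ := h4
    have h5 : p.2 = (e (r₂ i) : C) :=
      (y.pi.eq_iff _ (hxy hp) _ (he (r₂ i))).1 hp'
    change (r' i, (e (r₂ i) : C)) ∈ x.R
    rw [← h5, ← hp']
    exact hp
  · have hc : #(ζ ⊕ ι) ≤ ν' := by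
      rw [mk_sum, lift_id, lift_id]
      exact add_le_of_le hν' (hζ.trans hτν) (hι.trans hτν)
    have hyc : thr κf ν' ≤ #y.S := hthr.trans y.card.ge
    have hSm : K.mem y.S := (K.mem_of_le _ y.le).1
    have h5 := EqS.map_emb hK hunb (hℓ.trans hτν) y.S.subtype (AEC.emb_subtype.2 y.le) hyc hc
      (Sum.elim m₁ r₁)
    have h6 := EqS.map_emb hK hunb (hℓ.trans hτν) y.S.subtype (AEC.emb_subtype.2 y.le) hyc hc
      (Sum.elim m₁ r₂)
    have h7 := EqS.map_emb hK hunb (hℓ.trans hτν) (y.S'.subtype.comp e.toEmbedding)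
      (AEC.Emb.comp (AEC.emb_subtype.2 y.le') (AEC.Emb.of_equiv e hSm)) hyc hc (Sum.elim m₁ r₁)
    have h8 := EqS.map_emb hK hunb (hℓ.trans hτν) (y.S'.subtype.comp e.toEmbedding)
      (AEC.Emb.comp (AEC.emb_subtype.2 y.le') (AEC.Emb.of_equiv e hSm)) hyc hc (Sum.elim m₁ r₂)
    have h9 : (fun i => y.S.subtype (Sum.elim m₁ r₁ i)) =
        Sum.elim (fun z => (m₁ z : E.N)) fun i => (r₁ i : E.N) := by
      funext i
      rcases i with i | i <;> rfl
    have h10 : (fun i => y.S.subtype (Sum.elim m₁ r₂ i)) =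
        Sum.elim (fun z => (m₁ z : E.N)) r' := by
      funext i
      rcases i with i | i <;> rfl
    have h11 : (fun i => (y.S'.subtype.comp e.toEmbedding) (Sum.elim m₁ r₁ i)) =
        Sum.elim m r := by
      funext i
      rcases i with i | i
      · exact hm₁ i
      · exact hr₁ i
    have h12 : (fun i => (y.S'.subtype.comp e.toEmbedding) (Sum.elim m₁ r₂ i)) =
        Sum.elim m fun i => (e (r₂ i) : C) := by
      funext i
      rcases i with i | i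
      · exact hm₁ i
      · rfl
    rw [h9] at h5
    rw [h10] at h6
    rw [h11] at h7
    rw [h12] at h8
    exact (((h7.symm.trans h5).trans h3).trans h6.symm).trans h8

end Vale.Agent.P307.R2.H882
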