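import Vale.Agent.P307.R2.H882.Lc1
import Vale.Agent.P307.R2.H913.ChnPg
import Vale.Agent.P307.R2.H229.Tree
import Vale.Agent.P307.R2.H718.Master

/-!
Local character of the independence of finite sets along arbitrary chains of strong submodels.
-/

set_option linter.unusedSectionVars false

universe u v w

open FirstOrder Cardinal Set Function

namespace Vale.Agent.P307.R2.H882

open Vale.Agent.P307 Vale.Agent.P307.H304 Vale.Agent.P307.R2.H287 Vale.Agent.P307.R2.H1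
  Vale.Agent.P307.R2.H971 Vale.Agent.P307.R2.H804 Vale.Agent.P307.R2.H806
  Vale.Agent.P307.R2.H541 Language.Structure Language.Substructure

variable {L : Language.{u, u}} {K : AEC L} {ℓ θ σ τ ν' : Cardinal.{u}}
  {κf α : Cardinal.{u} → Cardinal.{u}} {C : Type u} [L.Structure C]

theorem lvl_mono {ν μ ρ Λ Λ' : Cardinal.{u}} (h : Lvl ℓ κf α ν μ ρ Λ) (hΛ : Λ ≤ Λ') :
    Lvl ℓ κf α ν μ ρ Λ' :=
  ⟨h.hℓ, h.tB, h.νμ, h.opB, h.limB, h.lt.trans_le hΛ, h.thr.trans hΛ, h.thr'.trans hΛ,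
    h.thr''.trans hΛ⟩

section

variable (h₀ : BasePt K ℓ κf α θ) (hK : K.IsLS ℓ)
  (hunb : ∀ ν, ν < κf ν ∧ K.CategoricalIn (κf ν)) (hst : Stab K ℓ α (H287.thr κf))
  (hCm : K.mem C) (hs : Sat K θ C) (hCc : #C = Order.succ θ)

include h₀ hK hunb hst hCm hs hCc

/-- The step inside a strong submodel. -/
theorem exists_std_in (hσ : BasePt K ℓ κf α σ) (hσθ : σ < θ) {t : Tpl K ℓ} {F : Type u}
    [LinearOrder F] (hF : #F ≤ σ) {E : EM t (SuccTy σ ⊕ₗ F)} (hsE : Sat K σ E.N) {N : Set C}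
    (hN : N ∈ (pg h₀ hK hunb hst hCm hs hCc).S) (x : Pos K σ E.N C) (hx : (x.S' : Set C) ⊆ N)
    (B : Set C) (hBN : B ⊆ N) (hB : #B ≤ σ) (a₀ : SuccTy σ) :
    ∃ (y : Pos K σ E.N C) (b : SuccTy σ), IsStd y b ∧ x ≤ y ∧ B ⊆ y.S' ∧ (y.S' : Set C) ⊆ N ∧
      a₀ < b := by
  have hσ0 : ℵ₀ ≤ σ := aleph0_le_pt hσ hK
  have hℓσ : ℓ ≤ σ := hσ.pt.lt.le
  have hCσ : σ ≤ #C := by
    rw [hCc]
    exact hσθ.le.trans (Order.le_succ θ)
  have hsC := sat_low h₀ hK hunb hCm hCc hσ hσθ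
  obtain ⟨y, b, hy, hxy, -, hBy, hb⟩ := exists_std_ext hK hℓσ hℓσ hF hCm hCσ hsE hsC x ∅ B
    (by simp) hB a₀
  have hθ := aleph0_le_pt h₀ hK
  obtain ⟨g, ⟨e, he⟩, h1, h2⟩ := (pg h₀ hK hunb hst hCm hs hCc).sat hN
    (A := (x.S' : Set C) ∪ B) (B := (y.S' : Set C)) (union_subset hx hBN)
    (((mk_union_le _ _).trans (add_le_of_le hσ0 x.card'.le hB)).trans_lt hσθ)
    (lt_of_eq_of_lt y.card' hσθ)
  obtain ⟨z, hz1, hz2, hz3⟩ := exists_pos_move y e hCm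
  have hfix : ∀ c ∈ (x.S' : Set C) ∪ B, e c = c := fun c hc => (he c).trans (h1 c hc)
  refine ⟨z, b, hz1.trans hy, ?_, ?_, ?_, hb⟩
  · intro p hp
    have h3 := hz2 p (hxy hp)
    have h4 : p.2 ∈ (x.S' : Set C) := by
      rw [x.snd]
      exact ⟨p, hp, rfl⟩
    rw [hfix _ (Or.inl h4)] at h3
    exact h3
  · intro c hc
    have h3 := hBy hc
    rw [y.snd] at h3
    obtain ⟨p, hp, rfl⟩ := h3
    rw [z.snd]
    refine ⟨_, hz2 p hp, ?_⟩
    exact hfix _ (Or.inr hc)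
  · intro c hc
    obtain ⟨d, hd, rfl⟩ := hz3 c hc
    rw [he d]
    exact h2 d hd

/-- The first position inside a strong submodel. -/
theorem exists_std_init_in (hσ : BasePt K ℓ κf α σ) (hσθ : σ < θ) {t : Tpl K ℓ} {F : Type u}
    [LinearOrder F] (hF : #F ≤ σ) (E : EM t (SuccTy σ ⊕ₗ F)) {N : Set C}
    (hN : N ∈ (pg h₀ hK hunb hst hCm hs hCc).S) :
    ∃ (x : Pos K σ E.N C) (a : SuccTy σ), IsStd x a ∧ (x.S' : Set C) ⊆ N := by
  have hσ0 : ℵ₀ ≤ σ := aleph0_le_pt hσ hK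
  have hℓσ : ℓ ≤ σ := hσ.pt.lt.le
  obtain ⟨D, hD, hDc, rfl⟩ := hN
  obtain ⟨A, hA, -, hAc⟩ := exists_sub_card hK hℓσ (K.mem_of_le _ hD).1
    (hσθ.le.trans hDc.ge) ∅ (by simp)
  have hA' : K.le (A.map D.subtype.toHom) := K.le_trans D A hA hD
  have hA'c : #(A.map D.subtype.toHom : L.Substructure C) = σ := by
    rw [← hAc]
    exact mk_image_eq (s := (A : Set D)) D.subtype.injective
  obtain ⟨i₀, -⟩ := exists_gt_of_small hσ0 (∅ : Set (SuccTy σ)) (by simp)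
  obtain ⟨x, a, hx, hxA, -⟩ := exists_std_init hσ0 hℓσ hF hσ.pt.cat E _ hA' hA'c i₀
  refine ⟨x, a, hx, ?_⟩
  rw [hxA]
  rintro _ ⟨c, -, rfl⟩
  exact c.2

/-- **Local character along well ordered chains of small length.** -/
theorem loc_wf (hrk : ∀ ρ < θ, ∃ σ, ρ < σ ∧ σ < θ ∧ BasePt K ℓ κf α σ) {W : Type u}
    [LinearOrder W] [WellFoundedLT W] [Nonempty W] (hW : #W < θ) (N : W → Set C)
    (hN : Monotone N) (hNS : ∀ w, N w ∈ (pg h₀ hK hunb hst hCm hs hCc).S)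
    (hU : (⋃ w, N w) ∈ (pg h₀ hK hunb hst hCm hs hCc).S) (x : Set C) (hx : x.Finite) :
    ∃ w, (pg h₀ hK hunb hst hCm hs hCc).Ind (N w) x (⋃ w, N w) := by
  classical
  by_contra hcon
  push Not at hcon
  have hθ := aleph0_le_pt h₀ hK
  have hxc : #x < ℵ₀ := lt_aleph0_iff_set_finite.2 hx
  -- the levels
  obtain ⟨σ₁, -, hσ₁θ, hσ₁⟩ := hrk #W hW
  obtain ⟨ν, μ, ρ, hxν, -, hl₁⟩ := exists_lvl hσ₁ (hxc.trans_le (aleph0_le_pt hσ₁ hK))
  obtain ⟨σ, hσ', hσθ, hσ⟩ := hrk (max σ₁ #W) (max_lt hσ₁θ hW)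
  have hσ₁σ : σ₁ ≤ σ := (le_max_left _ _).trans hσ'.le
  have hWσ : #W ≤ σ := (le_max_right _ _).trans hσ'.le
  have hl : Lvl ℓ κf α ν μ ρ σ := lvl_mono hl₁ hσ₁σ
  have hlθ : Lvl ℓ κf α ν μ ρ θ := lvl_mono hl₁ hσ₁θ.le
  have hσ0 : ℵ₀ ≤ σ := aleph0_le_pt hσ hK
  have hℓσ : ℓ ≤ σ := hσ.pt.lt.le
  have hμ : ℵ₀ ≤ μ := hl.hμ hK
  have hxμ : #x ≤ μ := hxν.trans hl.νμ
  have hμρ : μ ≤ ρ := hl.μρ hunb
  obtain ⟨τ, hτdef⟩ : ∃ τ, τ = limB κf μ := ⟨_, rfl⟩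
  have hμτ : μ ≤ τ := by
    rw [hτdef]
    exact (le_opB hunb μ).trans (opB_le_limB κf μ)
  have hℓτ : ℓ ≤ τ := hl.hℓμ.trans hμτ
  have hτ0 : ℵ₀ ≤ τ := hK.1.trans hℓτ
  have hτσ : τ < σ := by
    rw [hτdef]
    exact hl.limB.trans_lt hl.lt
  have hτσ' : Order.succ τ ≤ σ := Order.succ_le_of_lt hτσ
  have hF : #(TailTy τ) ≤ σ := (mk_tailTy hτ0).trans_le hτσ'
  have hthr : thr κf τ ≤ σ := (hσ.pt.thr τ hτσ).le
  obtain ⟨t⟩ := exists_tpl' hK hunb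
  obtain ⟨E⟩ := exists_em t (SuccTy σ ⊕ₗ TailTy τ)
  have hsE : Sat K σ E.N := sat_em_low hσ.ab hK hℓσ (hσ.largeExt hK hunb _) t hℓσ hF E
  have hCσ : σ ≤ #C := by
    rw [hCc]
    exact hσθ.le.trans (Order.le_succ θ)
  have hsC := sat_low h₀ hK hunb hCm hCc hσ hσθ
  let r : x → C := fun e => (e : C)
  -- the sequences
  have hseq : ∀ w, ∃ a : SuccTy (opB κf μ) → x → C, (∀ i e, a i e ∈ N w) ∧
      Conv L μ a r (N w) := by
    intro w
    obtain ⟨D, hD, hDc, hDN⟩ := hNS w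
    obtain ⟨a, h1, h2⟩ := ind_empty h₀ hK hunb hlθ D hD hDc hxμ r Subset.rfl
      (refl_big h₀ hK hunb hlθ D hD hDc)
    rw [hDN] at h1 h2
    exact ⟨a, h1, h2.mono subset_union_left⟩
  choose a ha1 ha2 using hseq
  -- the bad tuples
  have hbad : ∀ w, ∃ (ζ : Type u) (y : ζ → C), #ζ ≤ μ ∧ (∀ z, y z ∈ ⋃ w, N w) ∧
      ∀ x₀, ∃ x', x₀ ≤ x' ∧ ¬ EqS L μ (Sum.elim y (a w x')) (Sum.elim y r) := by
    intro w
    by_contra hc
    push Not at hc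
    refine hcon w ?_
    obtain ⟨D, hD, hDc, hDN⟩ := hNS w
    obtain ⟨U, hUl, hUc, hUN⟩ := hU
    have h1 : H804.Ind L κf μ (D : Set C) (U : Set C) r := by
      refine ⟨a w, fun i e => ?_, fun ζ y hζ hy => ?_⟩
      · rw [hDN]
        exact ha1 w i e
      · refine hc ζ y hζ fun z => ?_
        rcases hy z with h2 | h2
        · rw [hDN] at h2
          exact mem_iUnion.2 ⟨w, h2⟩
        · rwa [hUN] at h2
    have hDU : (D : Set C) ⊆ U := by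
      rw [hDN, hUN]
      exact subset_iUnion N w
    have h2 := H480.pg_ind_of_lvl h₀ hK hunb hst hCm hs hCc hD hDc hUl hUc hDU hlθ hxν h1
    have h3 := pg_sym h₀ hK hunb hst hCm hs hCc hD hDc h2
    rwa [hDN, hUN] at h3
  choose ζ y hζ hy hyb using hbad
  -- the sets to be covered
  let B : W → Set C := fun w => (range fun p : SuccTy (opB κf μ) × x => a w p.1 p.2) ∪
    ((⋃ w', range (y w')) ∩ N w)
  have hBN : ∀ w, B w ⊆ N w := fun w => union_subset (by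
    rintro _ ⟨p, rfl⟩
    exact ha1 w _ _) inter_subset_right
  have hBc : ∀ w, #(B w) ≤ σ := by
    intro w
    refine (mk_union_le _ _).trans (add_le_of_le hσ0 (mk_range_le.trans ?_) ?_)
    · refine mk_prod_le hσ0 ?_ (hxc.le.trans hσ0)
      rw [mk_succTy]
      exact hl.opB.trans hl.lt.le
    · refine (mk_le_mk_of_subset inter_subset_left).trans ?_
      exact mk_iUnion_le_of_le hσ0 hWσ _ fun w' =>
        mk_range_le.trans ((hζ w').trans (hl.μΛ hunb).le)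
  -- the chain
  have : Nonempty (Pos K σ E.N C × SuccTy σ) := by
    obtain ⟨w⟩ := (inferInstance : Nonempty W)
    obtain ⟨x₀, a₀, -⟩ := exists_std_init_in h₀ hK hunb hst hCm hs hCc hσ hσθ hF E (hNS w)
    exact ⟨(x₀, a₀)⟩
  let P : W → (W → Pos K σ E.N C × SuccTy σ) → Prop := fun w d =>
    IsStd (d w).1 (d w).2 ∧ ((d w).1.S' : Set C) ⊆ N w ∧ B w ⊆ (d w).1.S' ∧
      ∀ k < w, (d k).1 ≤ (d w).1 ∧ (d k).2 < (d w).2
  obtain ⟨d, hd⟩ := H541.exists_rec P (by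
    rintro w d d' hdd ⟨h1, h2, h3, h4⟩
    have hw : d w = d' w := hdd w le_rfl
    refine ⟨hw ▸ h1, hw ▸ h2, hw ▸ h3, fun k hk => ?_⟩
    rw [← hw, ← hdd k hk.le]
    exact h4 k hk) (by
    intro w d hP
    obtain ⟨x₀, a₀, h1, h2⟩ : ∃ (x₀ : Pos K σ E.N C) (a₀ : SuccTy σ), (x₀.S' : Set C) ⊆ N w ∧
        ∀ k < w, (d k).1 ≤ x₀ ∧ (d k).2 ≤ a₀ := by
      by_cases hw : Nonempty (Iio w)
      · have hc : #(Iio w) ≤ σ := (mk_subtype_le _).trans hWσ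
        have hm1 : Monotone fun k : Iio w => (d k).1 := by
          intro k k' hkk
          rcases hkk.lt_or_eq with h | h
          · exact ((hP k' k'.2).2.2.2 k h).1
          · rw [h]
        have hm2 : Monotone fun k : Iio w => (d k).2 := by
          intro k k' hkk
          rcases hkk.lt_or_eq with h | h
          · exact ((hP k' k'.2).2.2.2 k h).2.le
          · rw [h]
        obtain ⟨z, b, -, hz2, hz3⟩ := exists_std_iUnion hσ0 hc (fun k : Iio w => (d k).1)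
          (fun k : Iio w => (d k).2) hm1 hm2 fun k => (hP k k.2).1
        refine ⟨z, b, ?_, fun k hk => ⟨?_, hz3.1 ⟨⟨k, hk⟩, rfl⟩⟩⟩
        · rw [z.snd, hz2]
          rintro _ ⟨p, hp, rfl⟩
          obtain ⟨k, hk⟩ := mem_iUnion.1 hp
          refine hN k.2.le ((hP k k.2).2.1 ?_)
          rw [(d (k : W)).1.snd]
          exact ⟨p, hk, rfl⟩
        · intro p hp
          rw [hz2]
          exact mem_iUnion.2 ⟨⟨k, hk⟩, hp⟩
      · obtain ⟨x₀, a₀, -, h2⟩ := exists_std_init_in h₀ hK hunb hst hCm hs hCc hσ hσθ hF E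
          (hNS w)
        exact ⟨x₀, a₀, h2, fun k hk => absurd ⟨⟨k, hk⟩⟩ hw⟩
    obtain ⟨z, b, h3, h4, h5, h6, h7⟩ := exists_std_in h₀ hK hunb hst hCm hs hCc hσ hσθ hF hsE
      (hNS w) x₀ h1 (B w) (hBN w) (hBc w) a₀
    refine ⟨(z, b), ?_⟩
    have hui : update d w ((z, b) : Pos K σ E.N C × SuccTy σ) w = (z, b) := update_self w _ d
    have huk : ∀ k < w, update d w ((z, b) : Pos K σ E.N C × SuccTy σ) k = d k :=
      fun k hk => update_of_ne hk.ne _ d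
    refine ⟨?_, ?_, ?_, fun k hk => ?_⟩
    · rw [hui]
      exact h3
    · rw [hui]
      exact h6
    · rw [hui]
      exact h5
    · rw [hui, huk k hk]
      exact ⟨(h2 k hk).1.trans h4, (h2 k hk).2.trans_lt h7⟩)
  have hm1 : Monotone fun w : W => (d w).1 := by
    intro k k' hkk
    rcases hkk.lt_or_eq with h | h
    · exact ((hd k').2.2.2 k h).1
    · rw [h]
  have hm2 : Monotone fun w : W => (d w).2 := by
    intro k k' hkk
    rcases hkk.lt_or_eq with h | h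
    · exact ((hd k').2.2.2 k h).2.le
    · rw [h]
  by_cases hmax : ∃ w : W, ∀ k, k ≤ w
  · -- the chain has a last model
    obtain ⟨w, hw⟩ := hmax
    have h1 : (⋃ w, N w) = N w :=
      Subset.antisymm (iUnion_subset fun k => hN (hw k)) (subset_iUnion N w)
    refine hcon w ?_
    rw [h1]
    intro A hA hAc F hF hFc
    exact ⟨1, (pg h₀ hK hunb hst hCm hs hCc).G.one_mem, fun _ _ => rfl, fun b hb => hF hb⟩
  push Not at hmax
  obtain ⟨z, b, hz1, hz2, hz3⟩ := exists_std_iUnion hσ0 hWσ (fun w : W => (d w).1)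
    (fun w : W => (d w).2) hm1 hm2 fun w => (hd w).1
  have hdz : ∀ w, (d w).1 ≤ z := by
    intro w p hp
    rw [hz2]
    exact mem_iUnion.2 ⟨w, hp⟩
  obtain ⟨V, hV, hVf, hV'⟩ := exists_base_fin' hK hunb hℓτ le_rfl hτσ' hthr hsE hCm hCσ hsC hz1
    x hx
  -- an index above the finite base
  have hex : ∃ w, V ⊆ Iio (d w).2 := by
    have h1 : ∀ v ∈ V, ∃ w, v < (d w).2 := by
      intro v hv
      obtain ⟨_, ⟨w, rfl⟩, hw⟩ := (lt_isLUB_iff hz3).1 (hV hv)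
      exact ⟨w, hw⟩
    choose! f hf using h1
    obtain ⟨w, hw⟩ := (hVf.image f).bddAbove
    exact ⟨w, fun v hv => lt_of_lt_of_le (hf v hv) (hm2 (hw ⟨v, hv, rfl⟩))⟩
  obtain ⟨w, hw⟩ := hex
  have hwb : Iio (d w).2 ⊆ Iio b := Iio_subset_Iio (hz3.1 ⟨w, rfl⟩)
  have h3 := hV' (Iio (d w).2) hw hwb
  rw [chA_of_le (hd w).1 (hdz w) Subset.rfl, chA_Iio (hd w).1] at h3
  have hsub : ((d w).1.S' : Set C) ⊆ z.S' := Pos.S'_mono (hdz w)
  have h4 : H804.Ind L κf μ ((d w).1.S' : Set C) (z.S' : Set C) r := by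
    refine ind_of_coH hσ hK hunb hl hτdef.ge le_rfl z.S' z.le' z.card' (A := x)
      (union_subset hsub Subset.rfl) ?_ hxν r fun e => e.2
    rw [union_eq_self_of_subset_left hsub]
    exact h3
  have h5 : Conv L μ (a w) r ((d w).1.S' ∪ z.S' : Set C) := by
    refine h4.conv hμ hμρ hl.opB hxμ (refl_big hσ hK hunb hl _ (d w).1.le' (d w).1.card') ?_
      (fun i e => (hd w).2.2.1 (Or.inl ⟨(i, e), rfl⟩)) ((ha2 w).mono (hd w).2.1)
    rw [mk_succTy]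
    exact hl.opB
  have h6 : ∀ k, y w k ∈ ((d w).1.S' ∪ z.S' : Set C) := by
    intro k
    obtain ⟨w', hw'⟩ := mem_iUnion.1 (hy w k)
    refine Or.inr (Pos.S'_mono (hdz w') ((hd w').2.2.1 (Or.inr ⟨?_, hw'⟩)))
    exact mem_iUnion.2 ⟨w, k, rfl⟩
  obtain ⟨x₀, hx₀⟩ := h5 (ζ w) (y w) (hζ w) h6
  obtain ⟨x', h7, h8⟩ := hyb w x₀
  exact h8 (hx₀ x' h7)

end

end Vale.Agent.P307.R2.H882
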